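import Crest.Agent.X261.Cov.B
import Crest.Agent.X277.AN.LSE
import Crest.Agent.T223.Hm0_77
import Crest.Agent.R273.RMan4_798

-- ▼ part X261/Cov/C
section

/-!
# X261, package COV (helper3), part C: derivative bounds, exhaustion, cut-offs

* `Bd K P C`, `exists_bd` : the constant of the partition of unity;
* `abs_hsf_ip`, `gq_ip`, `fderiv_ip` : `|∂∂̄ Ip a| ≤ C L ω`, `|∂ Ip a|² ≤ C L² ω` where `a` moves by
  at most `L` along the generators;
* `ex D P` : smooth proper exhaustion of `D.cov G`; `dd D P` : invariant two-point function;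
* `exists_cutoff`, `cut_pull : T223.Hm.Cut (pullKah D G K)`;
* `rho D P` : `∑ g, rho (g • e) = 1`.
-/

set_option autoImplicit false
set_option linter.unusedSectionVars false

open Set Filter Topology Complex
open scoped ContDiff Matrix ComplexConjugate

namespace Crest.Agent.X261.Cov.C

open Crest.Agent.R275.Geo Crest.Agent.R275.EDR890 Crest.Agent.R273.UCov_914
open Crest.Agent.R273.Kah_333 Crest.Agent.R273.Hess_333 Crest.Agent.R273.HessB_333
open Crest.Agent.R273.RMan4_798 (pullKah)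
open Crest.Agent.R273.FIa0_597 (gr)
open Crest.Agent.X277.AN Crest.Agent.X261.Cov.A Crest.Agent.X261.Cov.B

noncomputable section

variable {n : ℕ} {X : Type} [TopologicalSpace X] {A : Atl n X}

/-! ### generalities -/

theorem hq_eq_qf (S : Matrix (Fin n) (Fin n) ℂ) (v : Fin n → ℂ) : T223.Hm.hq S v = qf S v := by
  unfold T223.Hm.hq qf
  congr 1
  rw [Finset.sum_comm]
  refine Finset.sum_congr rfl fun b _ => ?_
  change star (v b) * (∑ a, S a b * v a) = _
  rw [Finset.mul_sum]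
  refine Finset.sum_congr rfl fun a _ => ?_
  rw [RCLike.star_def]
  ring

theorem dl_eq_gf (u : X → ℝ) (i : A.ι) (x : X) (a : Fin n) :
    R275.OmT75.dl A i a (fun y => (u y : ℂ)) x = gf A u i x a := by
  unfold R275.OmT75.dl R275.OmT75.dj gf gr wd wdL
  rw [cI_false, neg_smul, sub_eq_add_neg]
  rfl

theorem fderiv_eq_re {u : Cn n → ℝ} {z : Cn n} (hu : DifferentiableAt ℝ u z) (w : Cn n) :
    fderiv ℝ u z w = 2 * (∑ a, gr u z a * w a).re := by
  have h1 : fderiv ℝ (cu u) z w = (fderiv ℝ u z w : ℂ) := by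
    have := (Complex.ofRealCLM.hasFDerivAt.comp z hu.hasFDerivAt).fderiv
    exact congrArg (fun L => L w) this
  have h2 := apply_eq_sum (fderiv ℝ (cu u) z) w
  rw [h1, Fintype.sum_prod_type, Fintype.sum_bool] at h2
  have h3 : ∑ a, ze (true, a) w • wdL (true, a) (fderiv ℝ (cu u) z) =
      conj (∑ a, gr u z a * w a) := by
    rw [map_sum]
    refine Finset.sum_congr rfl fun a _ => ?_
    have h4 := conj_wd_real (false, a) hu
    rw [map_mul, mul_comm]
    change conj (w a) * wd (true, a) (cu u) z = conj (w a) * conj (wd (false, a) (cu u) z)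
    rw [h4]
    rfl
  have h5 : ∑ a, ze (false, a) w • wdL (false, a) (fderiv ℝ (cu u) z) = ∑ a, gr u z a * w a :=
    Finset.sum_congr rfl fun a _ => mul_comm _ _
  rw [h3, h5] at h2
  have h6 := congrArg Complex.re h2
  rw [Complex.ofReal_re, Complex.add_re, Complex.conj_re] at h6
  linarith

theorem abs_fderiv_le {u : Cn n → ℝ} {z : Cn n} (hu : DifferentiableAt ℝ u z) (w : Cn n) :
    |fderiv ℝ u z w| ≤ 2 * ‖∑ a, gr u z a * w a‖ := by
  rw [fderiv_eq_re hu, abs_mul, abs_two]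
  exact mul_le_mul_of_nonneg_left (Complex.abs_re_le_norm _) zero_le_two

theorem qx_sum {κ : Type*} (T : Finset κ) {f : κ → X → ℝ} (hf : ∀ k, A.Sm (f k)) (c : κ → ℝ)
    {i : A.ι} {x : X} (hx : x ∈ (A.e i).source) (ξ : Fin n → ℂ) :
    A.Sm (fun y => ∑ k ∈ T, c k * f k y) ∧
    qf (hsf A (fun y => ∑ k ∈ T, c k * f k y) i x) ξ = ∑ k ∈ T, c k * qf (hsf A (f k) i x) ξ ∧
    gf A (fun y => ∑ k ∈ T, c k * f k y) i x = ∑ k ∈ T, (c k : ℂ) • gf A (f k) i x := by
  classical
  induction T using Finset.induction_on with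
  | empty =>
    simp only [Finset.sum_empty]
    exact ⟨sm_const 0, qh_const 0 i x ξ, gr_const 0⟩
  | insert k T hk ih =>
    simp only [Finset.sum_insert hk]
    have h1 := sm_cmul (c k) (hf k)
    refine ⟨sm_add h1 ih.1, ?_, ?_⟩
    · rw [qh_add h1 ih.1 hx, qh_cmul _ (hf k) hx, ih.2.1]
    · rw [gf_add (sx_of_sm h1 hx) (sx_of_sm ih.1 hx), gf_cmul _ (sx_of_sm (hf k) hx), ih.2.2]

/-- the constant attached to a partition of unity -/
def Bd (K : Kah A) (P : Part A) (C : ℝ) : Prop :=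
  0 ≤ C ∧ ∀ i, ∀ x ∈ (A.e i).source, ∀ ξ : Fin n → ℂ,
    ∑ᶠ j, |qf (hsf A (P.ψ j) i x) ξ| ≤ C * qf (K.g i x) ξ ∧
    (∑ᶠ j, ‖∑ a, gf A (P.ψ j) i x a * ξ a‖) ^ 2 ≤ C * qf (K.g i x) ξ

theorem exists_bd [CompactSpace X] [Finite A.ι] (K : Kah A) (P : Part A) : ∃ C, Bd K P C := by
  have := Fintype.ofFinite A.ι
  choose C1 h1 h1' using fun j => exists_hsf_bound K (P.ψ_sm j)
  choose C2 h2 h2' using fun j => exists_hsf_bound K (sm_neg (P.ψ_sm j))
  choose C3 h3 h3' using fun j => exists_gq_bound K (P.ψ_sm j)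
  have p1 : 0 ≤ ∑ j, (C1 j + C2 j) := Finset.sum_nonneg fun j _ => add_nonneg (h1 j) (h2 j)
  have p2 : 0 ≤ (Fintype.card A.ι : ℝ) * ∑ j, C3 j :=
    mul_nonneg (Nat.cast_nonneg _) (Finset.sum_nonneg fun j _ => h3 j)
  refine ⟨∑ j, (C1 j + C2 j) + Fintype.card A.ι * ∑ j, C3 j, add_nonneg p1 p2,
    fun i x hx ξ => ?_⟩
  have hK := nn_kah K i x hx ξ
  rw [finsum_eq_sum_of_fintype, finsum_eq_sum_of_fintype, add_mul]
  constructor
  · refine le_add_of_le_of_nonneg ?_ (mul_nonneg p2 hK)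
    rw [Finset.sum_mul]
    refine Finset.sum_le_sum fun j _ => ?_
    have a1 := (h1' j).2 i x hx ξ
    have a2 := (h2' j).2 i x hx ξ
    rw [qx_neg (sx_of_sm (P.ψ_sm j) hx)] at a2
    rw [Pi.smul_apply, Pi.smul_apply, qf_smul] at a1 a2
    have a3 := mul_nonneg (h1 j) hK
    have a4 := mul_nonneg (h2 j) hK
    rw [abs_le, add_mul]
    constructor <;> linarith
  · refine le_add_of_nonneg_of_le (mul_nonneg p1 hK) ?_
    refine (sq_sum_le_card_mul_sum_sq (s := Finset.univ)).trans ?_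
    rw [Finset.card_univ, mul_assoc, Finset.sum_mul]
    exact mul_le_mul_of_nonneg_left (Finset.sum_le_sum fun j _ => h3' j i x hx ξ)
      (Nat.cast_nonneg _)

/-! ### bounds for the interpolation -/

variable {G : Type} [Group G] (D : MonD A G) {F : Type} [MulAction G F] [Finite A.ι]
variable {K : Kah A} {P : Part A} {C : ℝ}

theorem hsf_ip (a : F → ℝ) {p : A.ι × F} {e : D.cov F} (he : e ∈ D.sheet p.1 p.2) :
    hsf (D.atl F) (Ip D P a) p e = hsf A (loc D P a p) p.1 (D.pr e) :=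
  hess_congr (read_ip_ev D P a p ((A.e p.1).map_source he.1))

theorem gf_ip (a : F → ℝ) {p : A.ι × F} {e : D.cov F} (he : e ∈ D.sheet p.1 p.2) :
    gf (D.atl F) (Ip D P a) p e = gf A (loc D P a p) p.1 (D.pr e) :=
  gr_congr (read_ip_ev D P a p ((A.e p.1).map_source he.1))

theorem loc_eq' [Fintype A.ι] (a : F → ℝ) (p : A.ι × F) : loc D P a p =
    fun x => ∑ j, (a (cst D p.1 j • p.2) - a p.2) * P.ψ j x + a p.2 := by
  funext x
  rw [B.loc_eq]
  simp only [smul_eq_mul, mul_comm]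

theorem abs_hsf_ip (hC : Bd K P C) {a : F → ℝ} {p : A.ι × F} {L : ℝ} (h : LipAt D a p.2 L)
    {e : D.cov F} (he : e ∈ D.sheet p.1 p.2) (ξ : Fin n → ℂ) :
    |qf (hsf (D.atl F) (Ip D P a) p e) ξ| ≤ C * L * qf (K.g p.1 (D.pr e)) ξ := by
  have := Fintype.ofFinite A.ι
  have hL := h.nonneg D he.1
  obtain ⟨h1, h2, -⟩ := qx_sum Finset.univ P.ψ_sm (fun j => a (cst D p.1 j • p.2) - a p.2) he.1 ξ
  rw [hsf_ip D a he, loc_eq', qh_add_const h1 _ he.1, h2]
  have h3 := (hC.2 p.1 _ he.1 ξ).1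
  rw [finsum_eq_sum_of_fintype] at h3
  refine (Finset.abs_sum_le_sum_abs _ _).trans ?_
  calc ∑ j, |(a (cst D p.1 j • p.2) - a p.2) * qf (hsf A (P.ψ j) p.1 (D.pr e)) ξ|
      ≤ ∑ j, L * |qf (hsf A (P.ψ j) p.1 (D.pr e)) ξ| := by
        refine Finset.sum_le_sum fun j _ => ?_
        rw [abs_mul]
        exact mul_le_mul_of_nonneg_right (h.cst D hL p.1 j) (abs_nonneg _)
    _ ≤ L * (C * qf (K.g p.1 (D.pr e)) ξ) := by
        rw [← Finset.mul_sum]
        exact mul_le_mul_of_nonneg_left h3 hL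
    _ = _ := by ring

theorem gq_ip (hC : Bd K P C) {a : F → ℝ} {p : A.ι × F} {L : ℝ} (h : LipAt D a p.2 L)
    {e : D.cov F} (he : e ∈ D.sheet p.1 p.2) (ξ : Fin n → ℂ) :
    gq (D.atl F) (Ip D P a) p e ξ ≤ C * L ^ 2 * qf (K.g p.1 (D.pr e)) ξ := by
  have := Fintype.ofFinite A.ι
  have hL := h.nonneg D he.1
  obtain ⟨h1, -, h2⟩ := qx_sum Finset.univ P.ψ_sm (fun j => a (cst D p.1 j • p.2) - a p.2) he.1 ξ
  unfold gq
  rw [gf_ip D a he, loc_eq', gf_add_const _ (sx_of_sm h1 he.1), h2]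
  have h3 := (hC.2 p.1 _ he.1 ξ).2
  rw [finsum_eq_sum_of_fintype] at h3
  have h4 : ∑ b, (∑ j, ((a (cst D p.1 j • p.2) - a p.2 : ℝ) : ℂ) • gf A (P.ψ j) p.1 (D.pr e)) b *
      ξ b = ∑ j, ((a (cst D p.1 j • p.2) - a p.2 : ℝ) : ℂ) *
        ∑ b, gf A (P.ψ j) p.1 (D.pr e) b * ξ b := by
    simp only [Finset.sum_apply, Pi.smul_apply, smul_eq_mul, Finset.sum_mul, Finset.mul_sum,
      mul_assoc]
    exact Finset.sum_comm
  rw [h4]
  have h5 : ‖∑ j, ((a (cst D p.1 j • p.2) - a p.2 : ℝ) : ℂ) *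
      ∑ b, gf A (P.ψ j) p.1 (D.pr e) b * ξ b‖ ≤
      L * ∑ j, ‖∑ b, gf A (P.ψ j) p.1 (D.pr e) b * ξ b‖ := by
    rw [Finset.mul_sum]
    refine (norm_sum_le _ _).trans (Finset.sum_le_sum fun j _ => ?_)
    rw [norm_mul, Complex.norm_real]
    exact mul_le_mul_of_nonneg_right (h.cst D hL p.1 j) (norm_nonneg _)
  calc _ ≤ (L * ∑ j, ‖∑ b, gf A (P.ψ j) p.1 (D.pr e) b * ξ b‖) ^ 2 :=
        pow_le_pow_left₀ (norm_nonneg _) h5 2
    _ = L ^ 2 * (∑ j, ‖∑ b, gf A (P.ψ j) p.1 (D.pr e) b * ξ b‖) ^ 2 := by ring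
    _ ≤ L ^ 2 * (C * qf (K.g p.1 (D.pr e)) ξ) := mul_le_mul_of_nonneg_left h3 (sq_nonneg _)
    _ = _ := by ring


/-- smooth with `|∂∂̄ u| ≤ c ω`, `|∂ u|² ≤ c' ω` -/
structure Tame {M : Type} [TopologicalSpace M] {B : Atl n M} (K : Kah B) (u : M → ℝ) (c c' : ℝ) :
    Prop where
  sm : B.Sm u
  hs : ∀ i, ∀ x ∈ (B.e i).source, ∀ ξ, |qf (hsf B u i x) ξ| ≤ c * qf (K.g i x) ξ
  gr : ∀ i, ∀ x ∈ (B.e i).source, ∀ ξ, gq B u i x ξ ≤ c' * qf (K.g i x) ξ

theorem Tame.mono {M : Type} [TopologicalSpace M] {B : Atl n M} {K : Kah B} {u : M → ℝ}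
    {c c' d d' : ℝ} (h : Tame K u c c') (h1 : c ≤ d) (h2 : c' ≤ d') : Tame K u d d' :=
  ⟨h.sm, fun i x hx ξ => (h.hs i x hx ξ).trans (mul_le_mul_of_nonneg_right h1 (nn_kah K i x hx ξ)),
    fun i x hx ξ => (h.gr i x hx ξ).trans (mul_le_mul_of_nonneg_right h2 (nn_kah K i x hx ξ))⟩

theorem Tame.qp {M : Type} [TopologicalSpace M] {B : Atl n M} {K : Kah B} {u : M → ℝ}
    {c c' : ℝ} (h : Tame K u c c') : QP (c • K.g) u := by
  refine ⟨h.sm, fun i x hx ξ => ?_⟩
  rw [Pi.smul_apply, Pi.smul_apply, qf_smul]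
  have := (abs_le.1 (h.hs i x hx ξ)).1
  linarith

theorem tame_ip (hC : Bd K P C) {a : F → ℝ} {L : ℝ} (h : Lip D a L) :
    Tame (pullKah D F K) (Ip D P a) (C * L) (C * L ^ 2) :=
  ⟨sm_ip D P a, fun p _ he ξ => abs_hsf_ip D hC (h p.2) he ξ,
    fun p _ he ξ => gq_ip D hC (h p.2) he ξ⟩

/-! ### exhaustion -/

variable [ConnectedSpace (D.cov G)]

variable (P) in
/-- the smooth exhaustion -/
def ex : D.cov G → ℝ := Ip D P (wl D)


theorem continuous_ex : Continuous (ex D P) := continuous_ip D P _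


theorem abs_ex_sub (hP : PosP P) {i : A.ι} {e : D.cov G} (he : D.pr e ∈ (A.e i).source) :
    |ex D P e - wl D (D.co i e)| ≤ 1 := norm_ip_sub_le D hP (lip_wl D _) ⟨he, rfl⟩



theorem isCompact_ex [CompactSpace X] [T2Space X] (hP : PosP P) (R : ℝ) :
    IsCompact {e | ex D P e ≤ R} := by
  refine isCompact_of_finite D (isClosed_le (continuous_ex D) continuous_const)
    (finite_wl D (R + 1)) fun e he => ?_
  obtain ⟨i, hi⟩ := A.cover (D.pr e)
  have h1 := (abs_le.1 (abs_ex_sub D hP hi)).1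
  have h2 : ex D P e ≤ R := he
  exact ⟨i, hi, show wl D _ ≤ R + 1 by linarith⟩


theorem exists_ex_le {Z : Set (D.cov G)} (hZ : IsCompact Z) : ∃ R, ∀ e ∈ Z, ex D P e ≤ R := by
  obtain ⟨R, hR⟩ := hZ.bddAbove_image (continuous_ex D (P := P)).continuousOn
  exact ⟨R, fun e he => hR ⟨e, he, rfl⟩⟩

/-- functions of the word length -/
theorem tame_wl (hC : Bd K P C) {κ : ℝ → ℝ} {c : ℝ} (hc : 0 ≤ c)
    (hκ : ∀ s t, |κ s - κ t| ≤ c * |s - t|) :
    Tame (pullKah D G K) (Ip D P fun v => κ (wl D v)) (C * c) (C * c ^ 2) := by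
  have := tame_ip D hC ((lip_wl D).comp D hc hκ)
  rwa [mul_one] at this

/-- **cut-off functions** : `1` on `{ex ≤ R}`, `0` on `{R + T + 2 ≤ ex}` -/
theorem exists_cut (hP : PosP P) (hC : Bd K P C) (R : ℝ) {T : ℝ} (hT : 0 < T) :
    ∃ χ : D.cov G → ℝ, Tame (pullKah D G K) χ (C / T) (C / T ^ 2) ∧ (∀ e, 0 ≤ χ e ∧ χ e ≤ 1) ∧
      (∀ e, ex D P e ≤ R → χ e = 1) ∧ ∀ e, R + T + 2 ≤ ex D P e → χ e = 0 := by
  set κ : ℝ → ℝ := fun s => max 0 (min 1 ((R + T + 1 - s) / T)) with hκ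
  have hl : ∀ s t, |κ s - κ t| ≤ T⁻¹ * |s - t| := by
    intro s t
    refine (abs_max_sub_max_le_max _ _ _ _).trans ?_
    rw [sub_self, abs_zero]
    refine max_le (by positivity) ((abs_min_sub_min_le_max _ _ _ _).trans ?_)
    rw [sub_self, abs_zero]
    refine max_le (by positivity) (le_of_eq ?_)
    rw [← sub_div, abs_div, abs_of_pos hT, show R + T + 1 - s - (R + T + 1 - t) = -(s - t) by ring,
      abs_neg, div_eq_inv_mul]
  refine ⟨Ip D P fun v => κ (wl D v), ?_, fun e => ⟨?_, ?_⟩, fun e he => ?_, fun e he => ?_⟩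
  · have := tame_wl D hC (inv_pos.2 hT).le hl
    rwa [inv_pow, ← div_eq_mul_inv, ← div_eq_mul_inv] at this
  · exact ip_nonneg D hP (fun v => le_max_left _ _) e
  · exact ip_le D hP fun j _ => max_le zero_le_one (min_le_left _ _)
  · refine ip_eq_of D P fun j hj => ?_
    have h1 := (abs_le.1 (abs_ex_sub D hP hj)).1
    have h2 : 1 ≤ (R + T + 1 - wl D (D.co j e)) / T := by
      rw [le_div_iff₀ hT]; linarith
    simp only [hκ]
    rw [min_eq_left h2, max_eq_right zero_le_one]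
  · refine ip_eq_of D P fun j hj => ?_
    have h1 := (abs_le.1 (abs_ex_sub D hP hj)).2
    have h2 : (R + T + 1 - wl D (D.co j e)) / T ≤ 0 :=
      div_nonpos_of_nonpos_of_nonneg (by linarith) hT.le
    simp only [hκ]
    exact max_eq_left ((min_le_right _ _).trans h2)

/-- cut-off functions with small first and second derivatives -/
theorem exists_cutoff [CompactSpace X] [T2Space X] (K : Kah A) (P : Part A) {Z : Set (D.cov G)}
    (hZ : IsCompact Z) {ε : ℝ} (hε : 0 < ε) :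
    ∃ χ : D.cov G → ℝ, Tame (pullKah D G K) χ ε ε ∧ HasCompactSupport χ ∧
      (∀ e, 0 ≤ χ e ∧ χ e ≤ 1) ∧ ∀ e ∈ Z, ∀ᶠ e' in 𝓝 e, χ e' = 1 := by
  obtain ⟨P', hP⟩ := exists_posP P
  obtain ⟨C, hC⟩ := exists_bd K P'
  obtain ⟨R, hR⟩ := exists_ex_le D (P := P') hZ
  have h0 := hC.1
  have hT : 0 < C / ε + 1 := by positivity
  obtain ⟨χ, h1, h2, h3, h4⟩ := exists_cut D hP hC (R + 1) hT
  have h5 : C / (C / ε + 1) ≤ ε := by
    rw [div_le_iff₀ hT, mul_add, mul_div_cancel₀ _ hε.ne']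
    linarith
  refine ⟨χ, h1.mono h5 (le_trans ?_ h5), ?_, h2, fun e he => ?_⟩
  · refine div_le_div_of_nonneg_left h0 hT ?_
    have : 0 ≤ C / ε := by positivity
    nlinarith
  · exact HasCompactSupport.intro (isCompact_ex D hP (R + 1 + (C / ε + 1) + 2))
      fun e he => h4 e (not_le.1 he).le
  · have h6 : ∀ᶠ e' in 𝓝 e, ex D P' e' < R + 1 :=
      (continuous_ex D).continuousAt.eventually_lt continuousAt_const (by linarith [hR e he])
    filter_upwards [h6] with e' he'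
    exact h3 e' he'.le

/-- the lifted metric is complete in the sense of `T223.Hm` -/
theorem cut_pull [CompactSpace X] [T2Space X] (K : Kah A) (P : Part A) :
    T223.Hm.Cut (pullKah D G K) := by
  intro Z hZ ε hε
  obtain ⟨χ, h1, h2, h3, h4⟩ := exists_cutoff D K P hZ hε
  refine ⟨χ, h1.sm, h2, fun e he => (h4 e he).self_of_nhds, h3, fun p e he v => ?_⟩
  rw [hq_eq_qf]
  simp only [dl_eq_gf]
  exact h1.gr p e he v

/-! ### the invariant two-point function -/

variable (P) in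
/-- smooth invariant substitute of the distance -/
def dd (e e' : D.cov G) : ℝ := Ip D P (fun v => Ip D P (fun w => wl D (v * w⁻¹)) e') e












end

end Crest.Agent.X261.Cov.C
end

-- ▼ part X261/Cov/D

/-!
# X261, package COV (helper3), part D: fundamental domains and unfolding of integrals

* `cd D e : F` (measurable sheet number), `sec D v : X → D.cov F` (measurable sections),
  `FD D T = {e | cd D e ∈ T}`;
* `Lw D h h'` : the volume form `h'` of the covering is the lift of `h`;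
* `restrict_FD`, `vm_eq_sum`, `lintegral_unfold`, `hasSum_integral`, `integral_unfold`;
* `measurePreserving_deck`, `smulInv`, `isFD` (`IsFundamentalDomain H (FD D T)`);
-/

set_option autoImplicit false
set_option linter.unusedSectionVars false

open Set Filter Topology MeasureTheory
open scoped ENNReal Pointwise

namespace Crest.Agent.X261.Cov.D

open Crest.Agent.R275.Geo Crest.Agent.R275.Core144 Crest.Agent.R273.UCov_914
open Crest.Agent.R273.Defs_333 Crest.Agent.R273.Kah_333 Crest.Agent.R273.Vol_333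
open Crest.Agent.R273.Vm_333
open Crest.Agent.R273.RMan4_798 (pullKah)
open Crest.Agent.T223.Hm (ix ix_Dj ix_mem)
open Crest.Agent.X261.Cov.A Crest.Agent.X261.Cov.B Crest.Agent.X261.Cov.C

noncomputable section

variable {n : ℕ} {X : Type} [TopologicalSpace X] {A : Atl n X}
variable {G : Type} [Group G] (D : MonD A G) {F : Type} [MulAction G F]

/-! ### sums over the fibres -/




/-! ### measurable trivialisation -/

variable [Countable A.ι]

theorem ix_eq {i : A.ι} {x : X} (h : x ∈ Dj A i) : ix A x = i := by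
  by_contra hne
  exact Set.disjoint_left.1 (Dj_disjoint hne) (ix_Dj x) h

/-- the sheet number -/
def cd (e : D.cov F) : F := D.co (ix A (D.pr e)) e

/-- the sections -/
def sec (v : F) (x : X) : D.cov F := D.pt (ix A x) v x

/-- union of fundamental domains -/
def FD (T : Set F) : Set (D.cov F) := {e | cd D e ∈ T}

@[simp] theorem pr_sec (v : F) (x : X) : D.pr (sec D v x) = x := rfl

@[simp] theorem cd_sec (v : F) (x : X) : cd D (sec D v x) = v := D.co_pt v (ix_mem x)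

@[simp] theorem sec_cd (e : D.cov F) : sec D (cd D e) (D.pr e) = e := D.pt_co (ix_mem _)

theorem mem_sheet_cd (e : D.cov F) : e ∈ D.sheet (ix A (D.pr e)) (cd D e) := ⟨ix_mem _, rfl⟩

theorem mem_FD {T : Set F} {e : D.cov F} : e ∈ FD D T ↔ cd D e ∈ T := Iff.rfl




theorem cd_deck (g : G) (e : D.cov G) : cd D (g • e) = cd D e * g⁻¹ := D.co_deck g _ e









section cpt

variable [Finite A.ι]

theorem finite_cd {K : Set (D.cov F)} (hK : IsCompact K) : (cd D '' K).Finite := by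
  refine (finite_co D hK).subset ?_
  rintro _ ⟨e, he, rfl⟩
  exact ⟨e, he, _, mem_sheet_cd D e⟩

theorem exists_FD_sup {K : Set (D.cov F)} (hK : IsCompact K) :
    ∃ T : Finset F, K ⊆ FD D (T : Set F) :=
  ⟨(finite_cd D hK).toFinset, fun e he => by
    rw [Set.Finite.coe_toFinset]; exact ⟨e, he, rfl⟩⟩





end cpt

/-! ### measurability -/

variable [MeasurableSpace X] [BorelSpace X] [MeasurableSpace (D.cov F)] [BorelSpace (D.cov F)]

theorem measurable_pr : Measurable (D.pr (F := F)) := D.continuous_pr.measurable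

theorem measurableSet_FD (T : Set F) : MeasurableSet (FD D T) := by
  have : FD D T = ⋃ i, D.pr ⁻¹' Dj A i ∩ ⋃ v ∈ T, D.sheet i v := by
    ext e
    simp only [mem_iUnion, mem_inter_iff, mem_preimage]
    constructor
    · exact fun h => ⟨_, ix_Dj _, _, h, mem_sheet_cd D e⟩
    · rintro ⟨i, h1, v, hv, h2⟩
      rw [mem_FD, cd, ix_eq h1, h2.2]
      exact hv
  rw [this]
  exact MeasurableSet.iUnion fun i => (measurable_pr D (meas_Dj i)).inter
    (isOpen_biUnion fun v _ => D.isOpen_sheet i v).measurableSet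






/-! ### the lifted volume form -/




variable [Countable F] {D} {h : HM (KB A)⁻¹} {h' : HM (KB (D.atl F))⁻¹}




















section Bochner

variable {W : Type*} [NormedAddCommGroup W]




variable [NormedSpace ℝ W]





end Bochner

/-! ### maps of coverings -/



end

/-! ### deck transformations -/

section deck

variable {n : ℕ} {X : Type} [TopologicalSpace X] {A : Atl n X} [Countable A.ι]
variable {G : Type} [Group G] {D : MonD A G} [Countable G]
variable [MeasurableSpace X] [BorelSpace X] [MeasurableSpace (D.cov G)] [BorelSpace (D.cov G)]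
variable {h : HM (KB A)⁻¹} {h' : HM (KB (D.atl G))⁻¹}











end deck

end Crest.Agent.X261.Cov.D
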