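import Crest.Agent.X261.Cov.D
import Crest.Agent.R189.Amen

/-!
# X261, package COV (helper3), part E: arbitrary fibres, partitions of unity, push-forward to `G`

* `Len D a`, `exists_len` : proper Lipschitz functions on a countable fibre;
* `exists_cutF`, `exists_cutoffF`, `cut_pullF` : cut-off functions on every `D.cov F`;
* `rho D P T` : equivariant partitions of unity, `integral_rho`;
* `pm D μ : G →₀ ℝ` : the masses of the sheets, `pm_map`, `l1_pm_le`, `overlap`.
-/

set_option autoImplicit false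
set_option linter.unusedSectionVars false

open Set Filter Topology Complex MeasureTheory
open scoped ContDiff Matrix ComplexConjugate ENNReal Pointwise

namespace Crest.Agent.X261.Cov.E

open Crest.Agent.R275.Geo Crest.Agent.R273.UCov_914 Crest.Agent.R273.Defs_333
open Crest.Agent.R273.Kah_333 Crest.Agent.R273.Vm_333
open Crest.Agent.R273.RMan4_798 (pullKah)
open Crest.Agent.X277.AN Crest.Agent.X261.Cov.A Crest.Agent.X261.Cov.B Crest.Agent.X261.Cov.C
open Crest.Agent.X261.Cov.D
open Crest.Agent.R189 (l1 mass IsProb)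

noncomputable section

variable {n : ℕ} {X : Type} [TopologicalSpace X] {A : Atl n X}
variable {G : Type} [Group G] (D : MonD A G) {F : Type} [MulAction G F] [Finite A.ι]

/-! ### proper Lipschitz functions on the fibre -/

/-- proper, nonnegative and `1`-Lipschitz along the generators -/
structure Len (a : F → ℝ) : Prop where
  nonneg : ∀ v, 0 ≤ a v
  lip : Lip D a 1
  fin : ∀ R, {v | a v ≤ R}.Finite


/-- balls of the Schreier graph, with new points added at each step -/
def bl (S : ℕ → Set F) : ℕ → Set F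
  | 0 => S 0
  | k + 1 => bl S k ∪ Set.image2 (fun g v => g • v) (gens D) (bl S k) ∪ S (k + 1)

theorem finite_bl {S : ℕ → Set F} (hS : ∀ k, (S k).Finite) (k : ℕ) : (bl D S k).Finite := by
  induction k with
  | zero => exact hS 0
  | succ k ih => exact (ih.union ((finite_gens D).image2 _ ih)).union (hS _)

theorem bl_mono (S : ℕ → Set F) : Monotone (bl D S) :=
  monotone_nat_of_le_succ fun _ _ hv => Or.inl (Or.inl hv)

theorem sub_bl (S : ℕ → Set F) (k : ℕ) : S k ⊆ bl D S k := by
  cases k with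
  | zero => exact Subset.rfl
  | succ k => exact fun v hv => Or.inr hv

theorem smul_mem_bl {S : ℕ → Set F} {k : ℕ} {g : G} (hg : g ∈ gens D) {v : F}
    (hv : v ∈ bl D S k) : g • v ∈ bl D S (k + 1) := Or.inl (Or.inr ⟨g, hg, v, hv, rfl⟩)

theorem countable_fib [PreconnectedSpace (D.cov F)] [Nonempty X] : Countable F := by
  rcases isEmpty_or_nonempty F with h | ⟨⟨v0⟩⟩
  · infer_instance
  have h1 : (⋃ k, bl D (fun _ => ({v0} : Set F)) k) = univ := by
    refine of_stable D (fun g hg v hv => ?_) ⟨v0, mem_iUnion.2 ⟨0, rfl⟩⟩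
    obtain ⟨k, hk⟩ := mem_iUnion.1 hv
    exact mem_iUnion.2 ⟨k + 1, smul_mem_bl D hg hk⟩
  rw [← Set.countable_univ_iff, ← h1]
  exact Set.countable_iUnion fun k => (finite_bl D (fun _ => Set.finite_singleton _) k).countable

theorem exists_len [Countable F] : ∃ a : F → ℝ, Len D a := by
  classical
  obtain ⟨f, hf⟩ := exists_injective_nat F
  set S : ℕ → Set F := fun k => f ⁻¹' {k} with hS
  have hfin : ∀ k, (S k).Finite := fun k => (Set.finite_singleton k).preimage hf.injOn
  have hex : ∀ v, ∃ k, v ∈ bl D S k := fun v => ⟨f v, sub_bl D S _ rfl⟩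
  have h1 : ∀ g ∈ gens D, ∀ v, Nat.find (hex (g • v)) ≤ Nat.find (hex v) + 1 := fun g hg v =>
    Nat.find_min' _ (smul_mem_bl D hg (Nat.find_spec (hex v)))
  refine ⟨fun v => Nat.find (hex v), fun v => Nat.cast_nonneg _, fun v s hs => ?_, fun R => ?_⟩
  · have h2 : (Nat.find (hex (s • v)) : ℝ) ≤ Nat.find (hex v) + 1 := by exact_mod_cast h1 s hs v
    have h3 := h1 _ (inv_mem_gens D hs) (s • v)
    simp only [inv_smul_smul] at h3
    have h4 : (Nat.find (hex v) : ℝ) ≤ Nat.find (hex (s • v)) + 1 := by exact_mod_cast h3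
    rw [Real.norm_eq_abs, abs_le]
    constructor <;> linarith
  · refine (finite_bl D hfin ⌊R⌋₊).subset fun v hv => ?_
    exact bl_mono D S (Nat.le_floor hv) (Nat.find_spec (hex v))

section len

variable {D} {P : Part A} {K : Kah A} {C : ℝ} {a : F → ℝ}

theorem Len.abs_sub (h : Len D a) (hP : PosP P) {i : A.ι} {e : D.cov F}
    (he : D.pr e ∈ (A.e i).source) : |Ip D P a e - a (D.co i e)| ≤ 1 :=
  norm_ip_sub_le D hP (h.lip _) ⟨he, rfl⟩


theorem Len.isCompact [CompactSpace X] [T2Space X] (h : Len D a) (hP : PosP P) (R : ℝ) :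
    IsCompact {e | Ip D P a e ≤ R} := by
  refine isCompact_of_finite D (isClosed_le (continuous_ip D P a) continuous_const)
    (h.fin (R + 1)) fun e he => ?_
  obtain ⟨i, hi⟩ := A.cover (D.pr e)
  have h1 := (abs_le.1 (h.abs_sub hP hi)).1
  have h2 : Ip D P a e ≤ R := he
  exact ⟨i, hi, show a _ ≤ R + 1 by linarith⟩

theorem Len.tendsto [CompactSpace X] [T2Space X] (h : Len D a) (hP : PosP P) :
    Tendsto (Ip D P a) (cocompact _) atTop := by
  refine tendsto_atTop.2 fun R => ?_
  filter_upwards [(h.isCompact hP R).compl_mem_cocompact] with e he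
  exact (not_le.1 (show ¬Ip D P a e ≤ R from he)).le

theorem abs_ramp {R T : ℝ} (hT : 0 < T) (s t : ℝ) :
    |max 0 (min 1 ((R - s) / T)) - max 0 (min 1 ((R - t) / T))| ≤ T⁻¹ * |s - t| := by
  refine (abs_max_sub_max_le_max _ _ _ _).trans ?_
  rw [sub_self, abs_zero]
  refine max_le (by positivity) ((abs_min_sub_min_le_max _ _ _ _).trans ?_)
  rw [sub_self, abs_zero]
  refine max_le (by positivity) (le_of_eq ?_)
  rw [← sub_div, abs_div, abs_of_pos hT, show R - s - (R - t) = -(s - t) by ring,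
    abs_neg, div_eq_inv_mul]

/-- **cut-off functions** attached to a Lipschitz function of the sheet number -/
theorem exists_cutF (h : Lip D a 1) (hP : PosP P) (hC : Bd K P C) (R : ℝ) {T : ℝ} (hT : 0 < T) :
    ∃ χ : D.cov F → ℝ, Tame (pullKah D F K) χ (C / T) (C / T ^ 2) ∧ (∀ e, 0 ≤ χ e ∧ χ e ≤ 1) ∧
      (∀ e, Ip D P a e ≤ R → χ e = 1) ∧ ∀ e, R + T + 2 ≤ Ip D P a e → χ e = 0 := by
  have hs : ∀ {j : A.ι} {e : D.cov F}, D.pr e ∈ (A.e j).source →
      |Ip D P a e - a (D.co j e)| ≤ 1 := fun he => norm_ip_sub_le D hP (h _) ⟨he, rfl⟩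
  refine ⟨Ip D P fun v => max 0 (min 1 ((R + T + 1 - a v) / T)), ?_, fun e => ⟨?_, ?_⟩,
    fun e he => ?_, fun e he => ?_⟩
  · have := tame_ip D hC (h.comp D (κ := fun s => max 0 (min 1 ((R + T + 1 - s) / T)))
      (inv_pos.2 hT).le (abs_ramp hT))
    rwa [mul_one, inv_pow, ← div_eq_mul_inv, ← div_eq_mul_inv] at this
  · exact ip_nonneg D hP (fun v => le_max_left _ _) e
  · exact ip_le D hP fun j _ => max_le zero_le_one (min_le_left _ _)
  · refine ip_eq_of D P fun j hj => ?_
    have h1 := (abs_le.1 (hs hj)).1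
    have h2 : 1 ≤ (R + T + 1 - a (D.co j e)) / T := by
      rw [le_div_iff₀ hT]; linarith
    rw [min_eq_left h2, max_eq_right zero_le_one]
  · refine ip_eq_of D P fun j hj => ?_
    have h1 := (abs_le.1 (hs hj)).2
    have h2 : (R + T + 1 - a (D.co j e)) / T ≤ 0 :=
      div_nonpos_of_nonpos_of_nonneg (by linarith) hT.le
    exact max_eq_left ((min_le_right _ _).trans h2)

end len

/-- cut-off functions with small first and second derivatives on every countable covering -/
theorem exists_cutoffF [CompactSpace X] [T2Space X] [Countable F] (K : Kah A) (P : Part A)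
    {Z : Set (D.cov F)} (hZ : IsCompact Z) {ε : ℝ} (hε : 0 < ε) :
    ∃ χ : D.cov F → ℝ, Tame (pullKah D F K) χ ε ε ∧ HasCompactSupport χ ∧
      (∀ e, 0 ≤ χ e ∧ χ e ≤ 1) ∧ ∀ e ∈ Z, ∀ᶠ e' in 𝓝 e, χ e' = 1 := by
  obtain ⟨P', hP⟩ := exists_posP P
  obtain ⟨C, hC⟩ := exists_bd K P'
  obtain ⟨a, ha⟩ := exists_len D (F := F)
  obtain ⟨R, hR⟩ := hZ.bddAbove_image (continuous_ip D P' a).continuousOn
  have h0 := hC.1
  have hT : 0 < C / ε + 1 := by positivity
  obtain ⟨χ, h1, h2, h3, h4⟩ := exists_cutF ha.lip hP hC (R + 1) hT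
  have h5 : C / (C / ε + 1) ≤ ε := by
    rw [div_le_iff₀ hT, mul_add, mul_div_cancel₀ _ hε.ne']
    linarith
  refine ⟨χ, h1.mono h5 (le_trans ?_ h5), ?_, h2, fun e he => ?_⟩
  · refine div_le_div_of_nonneg_left h0 hT ?_
    have : 0 ≤ C / ε := by positivity
    nlinarith
  · exact HasCompactSupport.intro (ha.isCompact hP (R + 1 + (C / ε + 1) + 2))
      fun e he => h4 e (not_le.1 he).le
  · have h6 : ∀ᶠ e' in 𝓝 e, Ip D P' a e' < R + 1 :=
      (continuous_ip D P' a).continuousAt.eventually_lt continuousAt_const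
        (by linarith [hR ⟨e, he, rfl⟩])
    filter_upwards [h6] with e' he'
    exact h3 e' he'.le

theorem cut_pullF [CompactSpace X] [T2Space X] [Countable F] (K : Kah A) (P : Part A) :
    T223.Hm.Cut (pullKah D F K) := by
  intro Z hZ ε hε
  obtain ⟨χ, h1, h2, h3, h4⟩ := exists_cutoffF D K P hZ hε
  refine ⟨χ, h1.sm, h2, fun e he => (h4 e he).self_of_nhds, h3, fun p e he v => ?_⟩
  rw [hq_eq_qf]
  simp only [dl_eq_gf]
  exact h1.gr p e he v

/-! ### equivariant partitions of unity -/

section rho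

variable (P : Part A)

/-- smooth substitute of the indicator function of `FD D T` -/
def rho (T : Set F) : D.cov F → ℝ := Ip D P (T.indicator 1)













variable {P}





end rho

/-! ### integrals against the partition of unity -/

section int

variable [MeasurableSpace X] [BorelSpace X] [MeasurableSpace (D.cov G)] [BorelSpace (D.cov G)]
variable [Countable G] {μ : Measure (D.cov G)} [SMulInvariantMeasure G (D.cov G) μ] {P : Part A}


variable {W : Type*} [NormedAddCommGroup W] [NormedSpace ℝ W]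



end int

/-! ### the masses of the sheets -/

section pm

variable [MeasurableSpace X] [BorelSpace X] [MeasurableSpace (D.cov G)] [BorelSpace (D.cov G)]

open Classical in
/-- the masses of the sheets, as a finitely supported function on the group -/
def pm (μ : Measure (D.cov G)) : G →₀ ℝ :=
  if h : (Function.support fun v : G => μ.real (FD D {v⁻¹})).Finite then
    Finsupp.ofSupportFinite _ h else 0

/-- finite measure carried by a compact set -/
def CM (μ : Measure (D.cov G)) : Prop := IsFiniteMeasure μ ∧ ∃ K, IsCompact K ∧ μ Kᶜ = 0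

variable {D} {μ ν : Measure (D.cov G)}

theorem CM.mono (h : CM D μ) (hν : ν ≤ μ) : CM D ν := by
  obtain ⟨h1, K, hK, h2⟩ := h
  exact ⟨isFiniteMeasure_of_le μ hν, K, hK, le_antisymm ((hν _).trans h2.le) (zero_le)⟩

theorem CM.map [T2Space X] (h : CM D μ) (g : G) : CM D (μ.map (g • ·)) := by
  obtain ⟨h1, K, hK, h2⟩ := h
  have hc : Continuous fun e : D.cov G => g • e := continuous_const_smul g
  refine ⟨inferInstance, _, hK.image hc, ?_⟩
  rw [Measure.map_apply hc.measurable (hK.image hc).isClosed.measurableSet.compl]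
  exact measure_mono_null (fun e he hk => he ⟨e, hk, rfl⟩) h2

theorem CM.exists_finset (h : CM D μ) : ∃ T : Finset G, μ (FD D ((T : Set G)⁻¹))ᶜ = 0 := by
  classical
  obtain ⟨-, K, hK, h2⟩ := h
  obtain ⟨T, hT⟩ := exists_FD_sup D hK
  refine ⟨T.image (·⁻¹), measure_mono_null (compl_subset_compl.2 fun e hk => ?_) h2⟩
  have := hT hk
  rw [mem_FD] at this ⊢
  simpa using this

theorem real_eq_zero {T : Finset G} (hT : μ (FD D ((T : Set G)⁻¹))ᶜ = 0) {v : G} (hv : v ∉ T) :
    μ.real (FD D {v⁻¹}) = 0 := by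
  have h1 : FD D {v⁻¹} ⊆ (FD D ((T : Set G)⁻¹))ᶜ := fun e he hk => hv (by
    rw [mem_FD] at he hk
    rw [mem_singleton_iff.1 he] at hk
    simpa using hk)
  simp [Measure.real, measure_mono_null h1 hT]

theorem pm_apply (h : CM D μ) (v : G) : pm D μ v = μ.real (FD D {v⁻¹}) := by
  obtain ⟨T, hT⟩ := h.exists_finset
  have h1 : (Function.support fun v : G => μ.real (FD D {v⁻¹})).Finite :=
    T.finite_toSet.subset fun v hv => by_contra fun hn => hv (real_eq_zero hT hn)
  rw [pm, dif_pos h1]
  rfl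

theorem pm_nonneg (h : CM D μ) (v : G) : 0 ≤ pm D μ v := by
  rw [pm_apply h]
  exact measureReal_nonneg

theorem pm_mono (h : CM D μ) (hν : ν ≤ μ) (v : G) : pm D ν v ≤ pm D μ v := by
  have := h.1
  rw [pm_apply h, pm_apply (h.mono hν)]
  exact ENNReal.toReal_mono (measure_ne_top _ _) (hν _)

theorem mass_pm (h : CM D μ) : mass (pm D μ) = μ.real univ := by
  have := h.1
  obtain ⟨T, hT⟩ := h.exists_finset
  rw [R189.mass_eq (F := T) fun v hv => by_contra fun hn =>
    Finsupp.mem_support_iff.1 hv (by rw [pm_apply h, real_eq_zero hT hn])]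
  simp only [pm_apply h]
  rw [← measureReal_biUnion_finset _ fun v _ => measurableSet_FD D _]
  · refine measureReal_congr (ae_eq_univ.2
      (measure_mono_null (compl_subset_compl.2 fun e hk => ?_) hT))
    rw [mem_FD] at hk
    exact mem_iUnion₂.2 ⟨(cd D e)⁻¹, hk, by simp [mem_FD]⟩
  · intro v _ w _ hne
    refine Set.disjoint_left.2 fun e h1 h2 => hne ?_
    rw [mem_FD, mem_singleton_iff] at h1 h2
    exact inv_injective (h1.symm.trans h2)

theorem pm_map [T2Space X] (h : CM D μ) (g : G) :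
    pm D (μ.map (g • ·)) = (pm D μ).mapDomain (g * ·) := by
  ext v
  obtain ⟨w, rfl⟩ : ∃ w, v = g * w := ⟨g⁻¹ * v, by simp⟩
  rw [Finsupp.mapDomain_apply (mul_right_injective g), pm_apply h, pm_apply (h.map g),
    map_measureReal_apply (continuous_const_smul g).measurable (measurableSet_FD D _)]
  congr 1
  ext e
  simp only [mem_preimage, mem_FD, cd_deck, mem_singleton_iff, mul_inv_rev, mul_left_inj]

theorem isProb_pm (h : CM D μ) (h0 : μ ≠ 0) : IsProb ((μ.real univ)⁻¹ • pm D μ) := by
  have := h.1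
  refine ⟨fun v => mul_nonneg (inv_nonneg.2 measureReal_nonneg) (pm_nonneg h v), ?_⟩
  rw [R189.mass_lc, map_smul, ← R189.mass_lc, mass_pm h, smul_eq_mul, inv_mul_cancel₀]
  exact have : NeZero μ := ⟨h0⟩; measureReal_univ_ne_zero

/-- `U ≤ μ'`, `U ≤ W`, `μ ≤ W` : the overlap of `μ` and `μ'` is at least `|μ| + |U| - |W|` -/
theorem l1_pm_le {μ' U W : Measure (D.cov G)} (h' : CM D μ') (hW : CM D W) (h1 : U ≤ μ')
    (h2 : U ≤ W) (h3 : μ ≤ W) : l1 (pm D μ - pm D μ') ≤
      μ.real univ + μ'.real univ - 2 * (μ.real univ + U.real univ - W.real univ) := by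
  classical
  set T := (pm D μ').support ∪ (pm D W).support with hT
  have hs : ∀ {ν : Measure (D.cov G)}, ν ≤ W → (pm D ν).support ⊆ T := by
    intro ν hν v hv
    refine Finset.mem_union_right _ (Finsupp.mem_support_iff.2 fun h0 => ?_)
    exact Finsupp.mem_support_iff.1 hv
      (le_antisymm (h0 ▸ pm_mono hW hν v) (pm_nonneg (hW.mono hν) v))
  have hs' : (pm D μ').support ⊆ T := Finset.subset_union_left
  rw [← mass_pm h', ← mass_pm hW, ← mass_pm (hW.mono h2), ← mass_pm (hW.mono h3),
    R189.mass_eq hs', R189.mass_eq (hs le_rfl), R189.mass_eq (hs h2), R189.mass_eq (hs h3),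
    R189.l1_eq (F := T) (Finsupp.support_sub.trans (Finset.union_subset (hs h3) hs')),
    ← Finset.sum_add_distrib, ← Finset.sum_add_distrib, ← Finset.sum_sub_distrib, Finset.mul_sum,
    ← Finset.sum_sub_distrib]
  refine Finset.sum_le_sum fun v _ => ?_
  have a1 := pm_mono h' h1 v
  have a2 := pm_mono hW h2 v
  have a3 := pm_mono hW h3 v
  rw [Finsupp.sub_apply, abs_le]
  constructor <;> linarith


/-- **weak overlap** of a measure and its translate -/
theorem overlap [T2Space X] (h : CM D μ) (g : G) {U W : Measure (D.cov G)} (hW : CM D W)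
    (h1 : U ≤ μ.map (g • ·)) (h2 : U ≤ W) (h3 : μ ≤ W) (h0 : μ ≠ 0) :
    l1 (((μ.real univ)⁻¹ • pm D μ).mapDomain (g * ·) - (μ.real univ)⁻¹ • pm D μ) ≤
      2 - 2 * (μ.real univ + U.real univ - W.real univ) / μ.real univ := by
  have := h.1
  have hp : 0 < μ.real univ :=
    have : NeZero μ := ⟨h0⟩; measureReal_univ_pos
  have h4 := l1_pm_le (h.map g) hW h1 h2 h3
  rw [map_measureReal_apply (continuous_const_smul g).measurable MeasurableSet.univ,
    preimage_univ, R189.l1_sub_comm] at h4
  rw [Finsupp.mapDomain_smul, ← pm_map h, ← smul_sub, R189.l1_smul, abs_of_pos (inv_pos.2 hp)]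
  refine (mul_le_mul_of_nonneg_left h4 (inv_pos.2 hp).le).trans (le_of_eq ?_)
  field_simp
  ring

end pm

end

end Crest.Agent.X261.Cov.E
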