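import Crest.Agent.X261.Cov.K

/-!
# X261, package COV (helper3), part U: uniform balls (bounded geometry)

* `cb B i z r` : the coordinate ball of centre `z` and radius `r` in the chart `i`;
* `UB H` : a locally finite cover by coordinate balls of one radius `R`, finitely many colours,
  uniform bounds for the potentials and the changes of charts on the balls of radius `8 R`;
* `exists_ub0` (compact manifolds), `UB.lift`, `exists_ub` (coverings);
* `UB.inc` : small balls of one chart lie in small balls of the other charts.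
-/

set_option autoImplicit false
set_option linter.unusedSectionVars false

open Set Filter Topology Metric
open scoped ContDiff NNReal

namespace Crest.Agent.X261.Cov.U

open Crest.Agent.R275.Geo Crest.Agent.R273.UCov_914
open Crest.Agent.R273.YauCh_635 (two_le_inf lev_upper lev_lower)
open Crest.Agent.R281.Rich_710 (lev_eq_lvE)
open Crest.Agent.R281.Kp_487 (KP wt_contDiffAt wt_smooth Tm_hol)
open Crest.Agent.R257.HoB_843 (lvE)
open Crest.Agent.X261.Cov.B Crest.Agent.X261.Cov.K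

noncomputable section

variable {n : ℕ} {M : Type} [TopologicalSpace M] {B : Atl n M}

/-- coordinate ball -/
def cb (B : Atl n M) (i : B.ι) (z : Cn n) (r : ℝ) : Set M :=
  (B.e i).source ∩ B.e i ⁻¹' ball z r

/-- closed coordinate ball -/
def ccb (B : Atl n M) (i : B.ι) (z : Cn n) (r : ℝ) : Set M :=
  (B.e i).source ∩ B.e i ⁻¹' closedBall z r

section cb

variable {i : B.ι} {z : Cn n} {r r' : ℝ} {x : M}

theorem mem_cb : x ∈ cb B i z r ↔ x ∈ (B.e i).source ∧ ‖B.e i x - z‖ < r :=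
  and_congr Iff.rfl mem_ball_iff_norm

theorem mem_ccb : x ∈ ccb B i z r ↔ x ∈ (B.e i).source ∧ ‖B.e i x - z‖ ≤ r :=
  and_congr Iff.rfl mem_closedBall_iff_norm

theorem isOpen_cb : IsOpen (cb B i z r) := (B.e i).isOpen_inter_preimage isOpen_ball


theorem ccb_mono (h : r ≤ r') : ccb B i z r ⊆ ccb B i z r' :=
  inter_subset_inter_right _ (preimage_mono (closedBall_subset_closedBall h))

theorem cb_sub_ccb : cb B i z r ⊆ ccb B i z r :=
  inter_subset_inter_right _ (preimage_mono ball_subset_closedBall)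

theorem ccb_sub_cb (h : r < r') : ccb B i z r ⊆ cb B i z r' :=
  inter_subset_inter_right _ (preimage_mono (closedBall_subset_ball h))

theorem cb_eq (h : ball z r ⊆ (B.e i).target) : cb B i z r = (B.e i).symm '' ball z r :=
  ((B.e i).symm_image_eq_source_inter_preimage h).symm

theorem ccb_eq (h : closedBall z r ⊆ (B.e i).target) :
    ccb B i z r = (B.e i).symm '' closedBall z r :=
  ((B.e i).symm_image_eq_source_inter_preimage h).symm

theorem isCompact_ccb (h : closedBall z r ⊆ (B.e i).target) : IsCompact (ccb B i z r) := by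
  rw [ccb_eq h]
  exact (isCompact_closedBall z r).image_of_continuousOn ((B.e i).continuousOn_symm.mono h)

theorem symm_mem_cb {w : Cn n} (hw : w ∈ (B.e i).target) :
    (B.e i).symm w ∈ cb B i z r ↔ w ∈ ball z r := by
  rw [cb, mem_inter_iff, mem_preimage, (B.e i).right_inv hw, and_iff_right ((B.e i).map_target hw)]

theorem symm_mem_ccb {w : Cn n} (hw : w ∈ (B.e i).target) :
    (B.e i).symm w ∈ ccb B i z r ↔ w ∈ closedBall z r := by
  rw [ccb, mem_inter_iff, mem_preimage, (B.e i).right_inv hw, and_iff_right ((B.e i).map_target hw)]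

theorem isPreconnected_cb (h : ball z r ⊆ (B.e i).target) : IsPreconnected (cb B i z r) := by
  rw [cb_eq h]
  exact (convex_ball z r).isPreconnected.image _ ((B.e i).continuousOn_symm.mono h)

end cb

/-- uniform balls -/
structure UB (H : KP B) where
  J : Type
  ch : J → B.ι
  c : J → Cn n
  R : ℝ
  L : ℝ
  m : ℝ
  C : ℝ
  N : ℕ
  col : J → Fin N
  R_pos : 0 < R
  one_le_L : 1 ≤ L
  m_pos : 0 < m
  C_pos : 0 < C
  sub : ∀ j, closedBall (c j) (8 * R) ⊆ (B.e (ch j)).target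
  cover : ∀ x, ∃ j, x ∈ cb B (ch j) (c j) R
  disj : ∀ j k, j ≠ k → col j = col k →
    Disjoint (ccb B (ch j) (c j) (8 * R)) (ccb B (ch k) (c k) (8 * R))
  lf : ∀ K : Set M, IsCompact K → {j | (ccb B (ch j) (c j) (8 * R) ∩ K).Nonempty}.Finite
  lip : ∀ j k, ∀ x ∈ ccb B (ch j) (c j) (8 * R) ∩ ccb B (ch k) (c k) (8 * R),
    ∀ y ∈ ccb B (ch j) (c j) (8 * R) ∩ ccb B (ch k) (c k) (8 * R),
      ‖B.e (ch k) x - B.e (ch k) y‖ ≤ L * ‖B.e (ch j) x - B.e (ch j) y‖
  low : ∀ j, ∀ z ∈ closedBall (c j) (8 * R), ∀ v, m * ‖v‖ ^ 2 ≤ lvE (H.wt (ch j)) z v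
  up : ∀ j, ∀ z ∈ closedBall (c j) (8 * R), ∀ v, lvE (H.wt (ch j)) z v ≤ C * ‖v‖ ^ 2
  bd : ∀ j, ∀ z ∈ closedBall (c j) (8 * R), |H.wt (ch j) z| ≤ C
  wlip : ∀ j, ∀ z ∈ closedBall (c j) (8 * R), ∀ w ∈ closedBall (c j) (8 * R),
    |H.wt (ch j) z - H.wt (ch j) w| ≤ C * ‖z - w‖

namespace UB

variable {H : KP B} (S : UB H)

/-- the ball `j` with radius `r` -/
abbrev V (j : S.J) (r : ℝ) : Set M := cb B (S.ch j) (S.c j) r

/-- the closed ball `j` with radius `r` -/
abbrev W (j : S.J) (r : ℝ) : Set M := ccb B (S.ch j) (S.c j) r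

theorem L_pos : 0 < S.L := one_pos.trans_le S.one_le_L

theorem sub' (j : S.J) {r : ℝ} (hr : r ≤ 8 * S.R) : closedBall (S.c j) r ⊆ (B.e (S.ch j)).target :=
  (closedBall_subset_closedBall hr).trans (S.sub j)

theorem isCompact_W (j : S.J) {r : ℝ} (hr : r ≤ 8 * S.R) : IsCompact (S.W j r) :=
  isCompact_ccb (S.sub' j hr)

theorem ball_sub {j : S.J} {x : M} {r d : ℝ} (hx : x ∈ S.W j r) (h : r + d ≤ 8 * S.R) :
    closedBall (B.e (S.ch j) x) d ⊆ closedBall (S.c j) (8 * S.R) :=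
  closedBall_subset_closedBall' (by linarith [mem_closedBall.1 hx.2])

theorem ccb_sub {j : S.J} {x : M} {r d : ℝ} (hx : x ∈ S.W j r) :
    ccb B (S.ch j) (B.e (S.ch j) x) d ⊆ S.W j (r + d) :=
  inter_subset_inter_right _ (preimage_mono
    (closedBall_subset_closedBall' (by linarith [mem_closedBall.1 hx.2])))

/-- at most `N` balls contain a given point -/
theorem injOn_col (x : M) : InjOn S.col {j | x ∈ S.W j (8 * S.R)} := fun j hj k hk h =>
  by_contra fun hne => Set.disjoint_left.1 (S.disj j k hne h) hj hk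


/-- small balls of one chart lie in small balls of the other chart -/
theorem inc [T2Space M] {j k : S.J} {x : M} (hj : x ∈ S.W j (7 * S.R)) (hk : x ∈ S.W k (7 * S.R))
    {d : ℝ} (hd : S.L * d < S.R) :
    cb B (S.ch j) (B.e (S.ch j) x) d ⊆ cb B (S.ch k) (B.e (S.ch k) x) (S.L * d) := by
  rcases le_or_gt d 0 with h0 | h0
  · intro y hy
    exact absurd hy.2 (by rw [ball_eq_empty.2 h0]; exact notMem_empty _)
  have hR := S.R_pos
  have h1 : d ≤ S.L * d := le_mul_of_one_le_left h0.le S.one_le_L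
  have s1 := S.ball_sub hj (d := d) (by linarith)
  have s2 := S.ball_sub hk (d := S.L * d) (by linarith)
  refine (isPreconnected_cb (ball_subset_closedBall.trans
    (s1.trans (S.sub j)))).subset_of_closure_inter_subset isOpen_cb
    ⟨x, ⟨hj.1, mem_ball_self h0⟩, hk.1, mem_ball_self (by linarith)⟩ ?_
  rintro y ⟨hy, hy'⟩
  have h2 : y ∈ ccb B (S.ch k) (B.e (S.ch k) x) (S.L * d) :=
    closure_minimal cb_sub_ccb (isCompact_ccb (s2.trans (S.sub k))).isClosed hy
  refine mem_cb.2 ⟨h2.1, (S.lip j k y ⟨⟨hy'.1, s1 (ball_subset_closedBall hy'.2)⟩, h2.1, s2 h2.2⟩ x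
    ⟨ccb_mono (by linarith) hj, ccb_mono (by linarith) hk⟩).trans_lt ?_⟩
  exact mul_lt_mul_of_pos_left (mem_cb.1 hy').2 S.L_pos


/-- a closed set which meets finitely many balls is compact -/
theorem isCompact_of {Z : Set M} (hZ : IsClosed Z) (h : {j | (S.V j S.R ∩ Z).Nonempty}.Finite) :
    IsCompact Z := by
  refine (h.isCompact_biUnion fun j _ => S.isCompact_W j (r := S.R)
    (by linarith [S.R_pos])).of_isClosed_subset hZ fun x hx => ?_
  obtain ⟨j, hj⟩ := S.cover x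
  exact mem_iUnion₂.2 ⟨j, ⟨x, hj, hx⟩, cb_sub_ccb hj⟩

end UB

theorem exists_lip {E F : Type*} [NormedAddCommGroup E] [NormedSpace ℝ E] [NormedAddCommGroup F]
    [NormedSpace ℝ F] {f : E → F} {K : Set E} (hK : IsCompact K) (h : ∀ z ∈ K, ContDiffAt ℝ ∞ f z) :
    ∃ L : ℝ, ∀ z ∈ K, ∀ w ∈ K, ‖f z - f w‖ ≤ L * ‖z - w‖ := by
  have h1 : LocallyLipschitzOn K f := fun z hz => by
    obtain ⟨L, t, ht, hL⟩ := ((h z hz).of_le (by simp : (1 : WithTop ℕ∞) ≤ ∞)).exists_lipschitzOnWith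
    exact ⟨L, t, mem_nhdsWithin_of_mem_nhds ht, hL⟩
  obtain ⟨L, hL⟩ := h1.exists_lipschitzOnWith_of_compact hK
  exact ⟨L, fun z hz w hw => by simpa only [dist_eq_norm] using hL.dist_le_mul z hz w hw⟩

theorem exists_ge {κ : Type*} [Finite κ] (f : κ → ℝ) : ∃ C : ℝ, 1 ≤ C ∧ ∀ k, f k ≤ C := by
  obtain ⟨C, hC⟩ := (Set.finite_range f).bddAbove
  exact ⟨max 1 C, le_max_left _ _, fun k => (hC ⟨k, rfl⟩).trans (le_max_right _ _)⟩

theorem exists_pos_le {κ : Type*} [Finite κ] {f : κ → ℝ} (h : ∀ k, 0 < f k) :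
    ∃ c : ℝ, 0 < c ∧ ∀ k, c ≤ f k := by
  obtain ⟨C, h1, h2⟩ := exists_ge fun k => (f k)⁻¹
  exact ⟨C⁻¹, by positivity, fun k => inv_le_of_inv_le₀ (h k) (h2 k)⟩

variable {X : Type} [TopologicalSpace X] {A : Atl n X} [Finite A.ι]

/-- uniform balls on a compact manifold, subordinate to a given open cover -/
theorem exists_ub0' [CompactSpace X] [T2Space X] {H : KP A} (hH : H.Pos) {κ : Type*}
    (O : κ → Set X) (hO : ∀ a, IsOpen (O a)) (hc : ∀ x, ∃ a, x ∈ O a) :
    ∃ S : UB H, Finite S.J ∧ Function.Injective S.col ∧ ∀ j, ∃ a, S.W j (8 * S.R) ⊆ O a := by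
  have h0 : ∀ x : X, ∃ (i : A.ι) (a : κ) (r : ℝ), 0 < r ∧ x ∈ (A.e i).source ∧
      closedBall (A.e i x) (2 * r) ⊆ (A.e i).target ∧ ccb A i (A.e i x) (2 * r) ⊆ O a := by
    intro x
    obtain ⟨i, hi⟩ := A.cover x
    obtain ⟨a, ha⟩ := hc x
    obtain ⟨r, hr, h⟩ := nhds_basis_closedBall.mem_iff.1
      ((BT.isOpen_chU (hO a) i).mem_nhds (BT.mem_chU hi ha))
    refine ⟨i, a, r / 2, by positivity, hi, fun z hz => (h (by simpa [mul_div_cancel₀] using hz)).1,
      fun y hy => ?_⟩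
    have := (h (by simpa [mul_div_cancel₀] using hy.2)).2
    rwa [mem_preimage, (A.e i).left_inv hy.1] at this
  choose ix a r hr hx hs hO' using h0
  obtain ⟨T, hT⟩ := isCompact_univ.elim_finite_subcover (fun x => cb A (ix x) (A.e (ix x) x) (r x))
    (fun _ => isOpen_cb) fun x _ => mem_iUnion.2 ⟨x, hx x, mem_ball_self (hr x)⟩
  obtain ⟨R, hR, hRr⟩ := exists_pos_le (f := fun x : T => r x / 8) fun x => by
    have := hr x; positivity
  choose t ht htf hcov using fun x : T =>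
    (isCompact_closedBall (A.e (ix x) x) (r x)).finite_cover_balls hR
  have hf : ∀ x, Finite (t x) := fun x => (htf x).to_subtype
  set J := Σ x : T, t x
  have hsub : ∀ j : J, closedBall (j.2 : Cn n) (8 * R) ⊆ closedBall (A.e (ix j.1) j.1) (2 * r j.1) :=
    fun j => closedBall_subset_closedBall'
      (by linarith [mem_closedBall.1 (ht j.1 j.2.2), hRr j.1])
  have hsub' : ∀ j : J, closedBall (j.2 : Cn n) (8 * R) ⊆ (A.e (ix j.1)).target :=
    fun j => (hsub j).trans (hs _)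
  have hK : ∀ j : J, IsCompact (ccb A (ix j.1) j.2 (8 * R)) := fun j => isCompact_ccb (hsub' j)
  have l1 : ∀ p : J × J, ∃ L : ℝ, ∀ x ∈ ccb A (ix p.1.1) p.1.2 (8 * R) ∩ ccb A (ix p.2.1) p.2.2 (8 * R),
      ∀ y ∈ ccb A (ix p.1.1) p.1.2 (8 * R) ∩ ccb A (ix p.2.1) p.2.2 (8 * R),
        ‖A.e (ix p.2.1) x - A.e (ix p.2.1) y‖ ≤ L * ‖A.e (ix p.1.1) x - A.e (ix p.1.1) y‖ := by
    intro p
    obtain ⟨L, hL⟩ := exists_lip (f := fun w => A.e (ix p.2.1) ((A.e (ix p.1.1)).symm w))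
      (((hK p.1).inter (hK p.2)).image_of_continuousOn
        ((A.e (ix p.1.1)).continuousOn.mono fun y hy => hy.1.1))
      (by rintro _ ⟨y, hy, rfl⟩; exact Tm_hol ⟨hy.1.1, hy.2.1⟩)
    refine ⟨L, fun x hx y hy => ?_⟩
    have := hL _ ⟨x, hx, rfl⟩ _ ⟨y, hy, rfl⟩
    rwa [(A.e _).left_inv hx.1.1, (A.e _).left_inv hy.1.1] at this
  choose L hL using l1
  choose m hm hm' using fun j : J => lev_lower (A.e (ix j.1)).open_target
    ((wt_smooth H _).of_le two_le_inf) (isCompact_closedBall _ _) (hsub' j)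
    fun z hz => hH _ z (hsub' j hz)
  choose C1 _ h1 using fun j : J => lev_upper (A.e (ix j.1)).open_target
    ((wt_smooth H _).of_le two_le_inf) (isCompact_closedBall _ _) (hsub' j)
  choose C2 h2 using fun j : J => (isCompact_closedBall (j.2 : Cn n) (8 * R)).exists_bound_of_continuousOn
    ((wt_smooth H _).continuousOn.mono (hsub' j))
  choose C3 h3 using fun j : J => exists_lip (isCompact_closedBall (j.2 : Cn n) (8 * R))
    fun z hz => wt_contDiffAt H _ (hsub' j hz)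
  obtain ⟨L0, hL1, hL2⟩ := exists_ge L
  obtain ⟨m0, hm1, hm2⟩ := exists_pos_le hm
  obtain ⟨C0, hC1, hC2⟩ := exists_ge fun j => max (C1 j) (max (C2 j) (C3 j))
  obtain ⟨N, ⟨e⟩⟩ := Finite.exists_equiv_fin J
  refine ⟨⟨J, fun j => ix j.1, fun j => j.2, R, L0, m0 / 4, C0, N, e, hR, hL1, by positivity,
    by positivity, hsub', fun x => ?_, fun j k hne h => absurd (e.injective h) hne,
    fun K _ => toFinite _, fun j k x hx y hy => ?_, fun j z hz v => ?_, fun j z hz v => ?_,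
    fun j z hz => ?_, fun j z hz w hw => ?_⟩, inferInstance, e.injective, fun j => ⟨a j.1, ?_⟩⟩
  · obtain ⟨y, hy, hxy⟩ := mem_iUnion₂.1 (hT (mem_univ x))
    obtain ⟨z, hz, hxz⟩ := mem_iUnion₂.1 (hcov ⟨y, hy⟩ (ball_subset_closedBall hxy.2))
    exact ⟨⟨⟨y, hy⟩, z, hz⟩, hxy.1, hxz⟩
  · exact (hL (j, k) x hx y hy).trans (mul_le_mul_of_nonneg_right (hL2 _) (norm_nonneg _))
  · have := hm' j z hz v
    rw [lev_eq_lvE] at this
    nlinarith [mul_le_mul_of_nonneg_right (hm2 j) (sq_nonneg ‖v‖)]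
  · have := (abs_le.1 (h1 j z hz v)).2
    rw [lev_eq_lvE] at this
    nlinarith [mul_le_mul_of_nonneg_right ((le_max_left _ _).trans (hC2 j)) (sq_nonneg ‖v‖),
      sq_nonneg ‖v‖]
  · exact (h2 j z hz).trans (((le_max_left _ _).trans (le_max_right _ _)).trans (hC2 j))
  · exact (h3 j z hz w hw).trans (mul_le_mul_of_nonneg_right
      (((le_max_right _ _).trans (le_max_right _ _)).trans (hC2 j)) (norm_nonneg _))
  · exact fun y hy => hO' _ ⟨hy.1, hsub j hy.2⟩

theorem exists_ub0 [CompactSpace X] [T2Space X] {H : KP A} (hH : H.Pos) :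
    ∃ S : UB H, Finite S.J ∧ Function.Injective S.col :=
  let ⟨S, h1, h2, _⟩ := exists_ub0' hH (fun _ : Unit => univ) (fun _ => isOpen_univ)
    fun x => ⟨(), mem_univ x⟩
  ⟨S, h1, h2⟩

variable {G : Type} [Group G] (D : MonD A G) (F : Type) [MulAction G F]

theorem mem_cb_lift {p : A.ι × F} {z : Cn n} {r : ℝ} {e : D.cov F} :
    e ∈ cb (D.atl F) p z r ↔ D.pr e ∈ cb A p.1 z r ∧ D.co p.1 e = p.2 :=
  ⟨fun h => ⟨⟨h.1.1, h.2⟩, h.1.2⟩, fun h => ⟨⟨h.1.1, h.2⟩, h.1.2⟩⟩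

theorem mem_ccb_lift {p : A.ι × F} {z : Cn n} {r : ℝ} {e : D.cov F} :
    e ∈ ccb (D.atl F) p z r ↔ D.pr e ∈ ccb A p.1 z r ∧ D.co p.1 e = p.2 :=
  ⟨fun h => ⟨⟨h.1.1, h.2⟩, h.1.2⟩, fun h => ⟨⟨h.1.1, h.2⟩, h.1.2⟩⟩

/-- the lifted balls -/
@[reducible] def UB.lift {H : KP A} (S : UB H) : UB (pullKP D F H) where
  J := S.J × F
  ch j := (S.ch j.1, j.2)
  c j := S.c j.1
  R := S.R
  L := S.L
  m := S.m
  C := S.C
  N := S.N
  col j := S.col j.1
  R_pos := S.R_pos
  one_le_L := S.one_le_L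
  m_pos := S.m_pos
  C_pos := S.C_pos
  sub j := S.sub j.1
  cover e := by
    obtain ⟨j, hj⟩ := S.cover (D.pr e)
    exact ⟨(j, D.co (S.ch j) e), (mem_cb_lift D F).2 ⟨hj, rfl⟩⟩
  disj j k hne h := by
    refine Set.disjoint_left.2 fun e h1 h2 => hne ?_
    obtain ⟨a1, a2⟩ := (mem_ccb_lift D F).1 h1
    obtain ⟨b1, b2⟩ := (mem_ccb_lift D F).1 h2
    have h3 : j.1 = k.1 := S.injOn_col (D.pr e) a1 b1 h
    refine Prod.ext h3 ?_
    rw [← show D.co (S.ch j.1) e = j.2 from a2, ← show D.co (S.ch k.1) e = k.2 from b2, h3]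
  lf K hK := by
    refine ((S.lf _ (hK.image D.continuous_pr)).prod (finite_co D hK)).subset ?_
    rintro j ⟨e, h1, h2⟩
    exact ⟨⟨D.pr e, ((mem_ccb_lift D F).1 h1).1, e, h2, rfl⟩, e, h2, _, h1.1⟩
  lip j k x hx y hy := S.lip j.1 k.1 (D.pr x)
    ⟨((mem_ccb_lift D F).1 hx.1).1, ((mem_ccb_lift D F).1 hx.2).1⟩ (D.pr y)
    ⟨((mem_ccb_lift D F).1 hy.1).1, ((mem_ccb_lift D F).1 hy.2).1⟩
  low j := S.low j.1
  up j := S.up j.1
  bd j := S.bd j.1
  wlip j := S.wlip j.1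

theorem exists_ub [CompactSpace X] [T2Space X] {H : KP A} (hH : H.Pos) :
    Nonempty (UB (pullKP D F H)) :=
  let ⟨S, _⟩ := exists_ub0 hH
  ⟨S.lift D F⟩



end

end Crest.Agent.X261.Cov.U
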